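import Vale.Agent.P144S.H.Lap
import Vale.Agent.P144.U.AL.Uniq

/-!
Existence of the `H`-function on the graph of the cells of `P`, and uniqueness of the solutions
without sources.
-/

namespace Vale.Agent.P144S.H

open Finset Vale.Agent.P144 Vale.Agent.P144S
open Vale.Agent.P144.AL (lap cnr mem_cnr mass_any zero_of_lap)

theorem sub_Vx {P : Finset Site} {x : Site} (hx : x ∈ P) : x ∈ Vx P :=
  mem_biUnion.2 ⟨x, hx, mem_cnr.2 (Or.inl rfl)⟩

section

variable {P : Finset Site} {τ θ A B C D : Site → ℝ} (h : Spr P τ θ A B C D)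

include h

theorem quadV (i j : ℤ) :
    C (i, j) ^ 2 - A (i, j + 1) ^ 2 = D (i, j) ^ 2 - B (i, j + 1) ^ 2 := by
  by_cases hh : ((i, j) : Site) ∈ P ∨ ((i, j + 1) : Site) ∈ P
  · obtain ⟨h1, h2⟩ := h.V i j hh
    rw [h1, h2]
    linear_combination (B (i, j + 1) ^ 2 - A (i, j + 1) ^ 2) * (h.τ2 (i, j)) +
      (A (i, j + 1) ^ 2 - B (i, j + 1) ^ 2) * sqrt2_sq
  · obtain ⟨h1, h2⟩ := h.V0 i j (fun h1 => hh (Or.inl h1)) fun h1 => hh (Or.inr h1)
    rw [h1, h2]; ring

theorem quadH (i j : ℤ) :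
    B (i, j) ^ 2 - A (i + 1, j) ^ 2 = D (i, j) ^ 2 - C (i + 1, j) ^ 2 := by
  by_cases hh : ((i, j) : Site) ∈ P ∨ ((i + 1, j) : Site) ∈ P
  · obtain ⟨h1, h2⟩ := h.H i j hh
    rw [h1, h2]
    linear_combination ((√2 * A (i + 1, j) - C (i + 1, j)) ^ 2 -
      (√2 * C (i + 1, j) - A (i + 1, j)) ^ 2) * (h.θ2 (i, j)) +
      (A (i + 1, j) ^ 2 - C (i + 1, j) ^ 2) * sqrt2_sq
  · obtain ⟨h1, h2⟩ := h.H0 i j (fun h1 => hh (Or.inl h1)) fun h1 => hh (Or.inr h1)
    rw [h1, h2]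
    linear_combination (A (i + 1, j) ^ 2 - C (i + 1, j) ^ 2) * (h.θ2 (i, j))

theorem exists_H (hc : NC P) : ∃ Hs Hf : Site → ℝ, IsH P A B C D Hs Hf := by
  obtain ⟨M, hM⟩ : ∃ M : ℕ, Vx P ⊆ box M := (H436.subset_box _).exists
  have hout : ∀ x : Site, (M:ℤ) < x.2 → x ∉ Vx P := by
    intro x hx hxΛ
    have := hM hxΛ
    rw [H436.mem_box, abs_le, abs_le] at this
    lia
  obtain ⟨Hf, hHf⟩ : ∃ Hf : Site → ℝ, ∀ i j : ℤ, Hf (i, j) =
      ∑ y ∈ Finset.Ico j ((M:ℤ) + 1), (A (i, y + 1) ^ 2 - C (i, y) ^ 2) :=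
    ⟨fun f => ∑ y ∈ Finset.Ico f.2 ((M:ℤ) + 1), (A (f.1, y + 1) ^ 2 - C (f.1, y) ^ 2),
      fun _ _ => rfl⟩
  have step : ∀ i j : ℤ, Hf (i, j) = Hf (i, j + 1) + A (i, j + 1) ^ 2 - C (i, j) ^ 2 := by
    intro i j
    rw [hHf, hHf]
    by_cases hj : j < (M:ℤ) + 1
    · have : Finset.Ico j ((M:ℤ) + 1) = insert j (Finset.Ico (j + 1) ((M:ℤ) + 1)) := by
        ext y; simp only [mem_Ico, mem_insert]; lia
      rw [this, sum_insert (by simp)]
      ring
    · rw [Finset.Ico_eq_empty (by lia), Finset.Ico_eq_empty (by lia),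
        h.zA i (j + 1) (hout _ (by simp only; lia)), h.zC i j (hout _ (by simp only; lia))]
      simp
  have high : ∀ i j : ℤ, (M:ℤ) < j → Hf (i, j) = 0 := by
    intro i j hj
    rw [hHf, Finset.Ico_eq_empty (by lia)]
    simp
  have horz : ∀ i j : ℤ, Hf (i + 1, j) - Hf (i, j) = B (i, j) ^ 2 - A (i + 1, j) ^ 2 := by
    intro i j
    have key : ∀ n : ℕ, ∀ j : ℤ, (M:ℤ) + 1 - n ≤ j →
        Hf (i + 1, j) - Hf (i, j) = B (i, j) ^ 2 - A (i + 1, j) ^ 2 := by
      intro n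
      induction n with
      | zero =>
        intro j hj
        rw [high _ _ (by lia), high _ _ (by lia), h.zB i j (hout _ (by simp only; lia)),
          h.zA (i + 1) j (hout _ (by simp only; lia))]
        simp
      | succ n ih =>
        intro j hj
        by_cases hj' : (M:ℤ) + 1 - n ≤ j
        · exact ih j hj'
        · have e := ih (j + 1) (by lia)
          have e1 := step (i + 1) j
          have e2 := step i j
          have e3 := quadV h i j
          have e4 := quadH h i j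
          linarith
    exact key ((M:ℤ) + 1 - j).toNat j (by lia)
  have hb : ∀ i j : ℤ, Hf (i + 1, j) + A (i + 1, j) ^ 2 - Hf (i, j) = B (i, j) ^ 2 := by
    intro i j; linarith [horz i j]
  have hcc : ∀ i j : ℤ, Hf (i, j + 1) + A (i, j + 1) ^ 2 - Hf (i, j) = C (i, j) ^ 2 := by
    intro i j; linarith [step i j]
  have hd : ∀ i j : ℤ, Hf (i + 1, j + 1) + A (i + 1, j + 1) ^ 2 - Hf (i, j) = D (i, j) ^ 2 := by
    intro i j
    have e1 := hb i (j + 1)
    have e2 := step i j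
    have e3 := quadV h i j
    linarith
  have ev : ∀ i j : ℤ, ((i, j) : Site) ∉ P → ((i, j + 1) : Site) ∉ P →
      Hf (i, j + 1) = Hf (i, j) := by
    intro i j h1 h2
    have := step i j
    rw [(h.V0 i j h1 h2).1] at this
    linarith
  have eh : ∀ i j : ℤ, ((i, j) : Site) ∉ P → ((i + 1, j) : Site) ∉ P →
      Hf (i + 1, j) = Hf (i, j) := by
    intro i j h1 h2
    have := horz i j
    rw [(h.H0 i j h1 h2).1] at this
    linear_combination this + A (i + 1, j) ^ 2 * h.θ2 (i, j)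
  have h0 : ((0, M + 1) : Site) ∉ P := fun hh => hout _ (by simp) (sub_Vx hh)
  have key : ∀ w, Relation.ReflTransGen (fun x y : Site => y ∉ P ∧ |x.1 - y.1| + |x.2 - y.2| = 1)
      (0, M + 1) w → w ∉ P ∧ Hf w = 0 := by
    intro w hw
    induction hw with
    | refl => exact ⟨h0, high _ _ (by lia)⟩
    | @tail x y _ hxy ih =>
      obtain ⟨h1, h2⟩ := hxy
      obtain ⟨a, b⟩ := x
      obtain ⟨c, d⟩ := y
      refine ⟨h1, ?_⟩
      have hc4 : (c = a + 1 ∧ d = b) ∨ (a = c + 1 ∧ d = b) ∨ (c = a ∧ d = b + 1) ∨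
          (c = a ∧ b = d + 1) := by
        simp only at h2
        rcases abs_cases (a - c) with h3 | h3 <;> rcases abs_cases (b - d) with h4 | h4 <;> lia
      rcases hc4 with ⟨rfl, rfl⟩ | ⟨rfl, rfl⟩ | ⟨rfl, rfl⟩ | ⟨rfl, rfl⟩
      · rw [eh _ _ ih.1 h1, ih.2]
      · rw [← eh _ _ h1 ih.1, ih.2]
      · rw [ev _ _ ih.1 h1, ih.2]
      · rw [← ev _ _ h1 ih.1, ih.2]
  have hz : ∀ f ∉ P, Hf f = 0 := fun f hf => (key f (hc _ h0 f hf)).2
  refine ⟨fun v => Hf v + A v ^ 2, Hf, ⟨fun i j => by simp, hb, hcc, hd, ?_⟩, hz⟩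
  rintro ⟨i, j⟩ hv
  show Hf (i, j) + A (i, j) ^ 2 = 0
  rw [hz _ fun hh => hv (sub_Vx hh), h.zA i j hv]
  ring

theorem unique (hc : NC P) (hθ : ∀ i j : ℤ, θ (i - 1, j) = θ (i - 1, j - 1)) (f : Site) :
    A f = 0 ∧ B f = 0 ∧ C f = 0 ∧ D f = 0 := by
  obtain ⟨Hs, Hf, hH⟩ := exists_H h hc
  obtain ⟨N, hN⟩ : ∃ M : ℕ, Vx P ⊆ box M := (H436.subset_box _).exists
  have hlo : ∀ x, hat P Hs x - Hs x ≤ lap (hat P Hs) x := fun x => lap_hat h hH (hθ x.1 x.2)
  have hnn : ∀ x, 0 ≤ lap (hat P Hs) x := fun x => by linarith [hlo x, le_hat hH x]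
  have hout : ∀ x ∉ box (N + 1), hat P Hs x = 0 := by
    rintro ⟨i, j⟩ hx
    have hz : ∀ a b : ℤ, |a - i| ≤ 1 → |b - j| ≤ 1 → Hs (a, b) = 0 := by
      intro a b h1 h2
      refine hH.h.out _ fun hh => hx ?_
      have h3 := hN hh
      rw [H436.mem_box, abs_le, abs_le] at h3 ⊢
      rw [abs_le] at h1 h2
      push_cast
      simp only at h3 ⊢
      lia
    unfold hat
    simp only
    rw [hz i j (by simp) (by simp), hz (i + 1) j (by simp) (by simp),
      hz (i - 1) j (by simp) (by simp), hz i (j + 1) (by simp) (by simp),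
      hz i (j - 1) (by simp) (by simp)]
    ring
  have hl : ∀ x, lap (hat P Hs) x = 0 := by
    intro x
    have := mass_any (P := ∅) hout (fun x _ => hnn x) {x}
    rw [sum_singleton, sum_empty, mul_zero] at this
    exact abs_nonpos_iff.1 this
  have hs0 : ∀ x, Hs x = 0 := fun x => by
    linarith [hlo x, le_hat hH x, hl x, zero_of_lap hout hl x]
  have z : ∀ x : ℝ, 0 - 0 = x ^ 2 → x = 0 := fun x hx =>
    pow_eq_zero_iff (by norm_num) |>.1 (by linarith : x ^ 2 = 0)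
  have key : ∀ n : ℕ, ∀ i j : ℤ, (N : ℤ) + 1 - n ≤ j → Hf (i, j) = 0 := by
    intro n
    induction n with
    | zero =>
      intro i j hj
      refine hH.zero _ fun hh => ?_
      have := hN (sub_Vx hh)
      rw [H436.mem_box, abs_le, abs_le] at this
      simp only at this
      lia
    | succ n ih =>
      intro i j hj
      by_cases hj' : (N : ℤ) + 1 - n ≤ j
      · exact ih i j hj'
      · have h1 := ih i (j + 1) (by lia)
        by_cases hh : ((i, j) : Site) ∈ P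
        · have e1 := h.V i j (Or.inl hh)
          have ea := hH.h.a i (j + 1)
          have eb := hH.h.b i (j + 1)
          have ec := hH.h.c i j
          rw [hs0, h1] at ea eb
          rw [hs0, e1.1, z _ ea, z _ eb] at ec
          linarith
        · exact hH.zero _ hh
  obtain ⟨i, j⟩ := f
  have hf : Hf (i, j) = 0 := key ((N : ℤ) + 1 - j).toNat i j (by lia)
  have ha := hH.h.a i j
  have hb := hH.h.b i j
  have hc := hH.h.c i j
  have hd := hH.h.d i j
  rw [hs0, hf] at ha hb hc hd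
  exact ⟨z _ ha, z _ hb, z _ hc, z _ hd⟩

end

/-- The `H`-function exists. -/
theorem sex : SEx := fun _ _ _ _ _ _ _ h hc => exists_H h hc

/-- Uniqueness of the solutions without sources. -/
theorem sunq : SUnq := fun _ _ _ _ _ _ _ h hc hθ => unique h hc hθ

end Vale.Agent.P144S.H
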