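import Vale.Agent.P144S.Defs

/-!
The Laplacians of the `H`-function on the graph of the cells of `P`.
-/

namespace Vale.Agent.P144S.H

open Finset Vale.Agent.P144 Vale.Agent.P144S
open Vale.Agent.P144.AL (lap cnr mem_cnr quad_nonneg)

theorem ih_in {P : Finset Site} {i j : ℤ} (h : ((i, j) : Site) ∈ P ∨ ((i, j - 1) : Site) ∈ P) :
    ih P (i, j) = 1 := if_pos h

theorem ih_out {P : Finset Site} {i j : ℤ}
    (h : ¬ (((i, j) : Site) ∈ P ∨ ((i, j - 1) : Site) ∈ P)) : ih P (i, j) = 0 := if_neg h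

theorem iv_in {P : Finset Site} {i j : ℤ} (h : ((i, j) : Site) ∈ P ∨ ((i - 1, j) : Site) ∈ P) :
    iv P (i, j) = 1 := if_pos h

theorem iv_out {P : Finset Site} {i j : ℤ}
    (h : ¬ (((i, j) : Site) ∈ P ∨ ((i - 1, j) : Site) ∈ P)) : iv P (i, j) = 0 := if_neg h

section

variable {P : Finset Site} {τ θ A B C D Hs Hf : Site → ℝ} (h : Spr P τ θ A B C D)
  (hH : IsH P A B C D Hs Hf)

include hH

theorem outA {i j : ℤ} (hf : ((i, j) : Site) ∉ P) : Hs (i, j) = A (i, j) ^ 2 := by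
  have := hH.h.a i j
  rw [hH.zero _ hf] at this
  linarith

theorem outB {i j : ℤ} (hf : ((i, j) : Site) ∉ P) : Hs (i + 1, j) = B (i, j) ^ 2 := by
  have := hH.h.b i j
  rw [hH.zero _ hf] at this
  linarith

theorem outC {i j : ℤ} (hf : ((i, j) : Site) ∉ P) : Hs (i, j + 1) = C (i, j) ^ 2 := by
  have := hH.h.c i j
  rw [hH.zero _ hf] at this
  linarith

theorem outD {i j : ℤ} (hf : ((i, j) : Site) ∉ P) : Hs (i + 1, j + 1) = D (i, j) ^ 2 := by
  have := hH.h.d i j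
  rw [hH.zero _ hf] at this
  linarith

/-- Both ends of a missing horizontal edge carry nonnegative values. -/
theorem mh (i j : ℤ) : 0 ≤ (1 - ih P (i, j)) * Hs (i, j) ∧
    0 ≤ (1 - ih P (i, j)) * Hs (i + 1, j) := by
  by_cases hh : ((i, j) : Site) ∈ P ∨ ((i, j - 1) : Site) ∈ P
  · rw [ih_in hh]; simp
  · rw [ih_out hh, outA hH fun h1 => hh (Or.inl h1), outB hH fun h1 => hh (Or.inl h1)]
    constructor <;> positivity

/-- Both ends of a missing vertical edge carry nonnegative values. -/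
theorem mv (i j : ℤ) : 0 ≤ (1 - iv P (i, j)) * Hs (i, j) ∧
    0 ≤ (1 - iv P (i, j)) * Hs (i, j + 1) := by
  by_cases hh : ((i, j) : Site) ∈ P ∨ ((i - 1, j) : Site) ∈ P
  · rw [iv_in hh]; simp
  · rw [iv_out hh, outA hH fun h1 => hh (Or.inl h1), outC hH fun h1 => hh (Or.inl h1)]
    constructor <;> positivity

theorem le_hat (x : Site) : Hs x ≤ hat P Hs x := by
  obtain ⟨i, j⟩ := x
  have e1 := (mh hH i j).2
  have e2 := (mh hH (i - 1) j).1
  have e3 := (mv hH i j).2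
  have e4 := (mv hH i (j - 1)).1
  unfold hat
  simp only
  linarith

include h

theorem dN {i j : ℤ} (he : ((i, j) : Site) ∈ P ∨ ((i - 1, j) : Site) ∈ P) :
    Hs (i, j + 1) - Hs (i, j) = A (i, j) ^ 2 + B (i - 1, j) ^ 2 -
      2 * √2 * (θ (i - 1, j) * (A (i, j) * B (i - 1, j))) := by
  have e1 := h.H (i - 1) j (by rw [sub_add_cancel]; exact he.symm)
  rw [sub_add_cancel] at e1
  have e2 := hH.h.c i j
  have e3 := hH.h.a i j
  have e4 : C (i, j) = √2 * A (i, j) - θ (i - 1, j) * B (i - 1, j) := by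
    rw [e1.1]; linear_combination (√2 * A (i, j) - C (i, j)) * h.θ2 (i - 1, j)
  have e5 : Hs (i, j + 1) - Hs (i, j) = C (i, j) ^ 2 - A (i, j) ^ 2 := by linarith
  rw [e5, e4]
  linear_combination (A (i, j) ^ 2) * sqrt2_sq + (B (i - 1, j) ^ 2) * h.θ2 (i - 1, j)

theorem dS {i j : ℤ} (he : ((i, j - 1) : Site) ∈ P ∨ ((i - 1, j - 1) : Site) ∈ P) :
    Hs (i, j - 1) - Hs (i, j) = C (i, j - 1) ^ 2 + D (i - 1, j - 1) ^ 2 +
      2 * √2 * (θ (i - 1, j - 1) * (C (i, j - 1) * D (i - 1, j - 1))) := by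
  have e1 := h.H (i - 1) (j - 1) (by rw [sub_add_cancel]; exact he.symm)
  rw [sub_add_cancel] at e1
  have e2 := hH.h.c i (j - 1)
  have e3 := hH.h.a i (j - 1)
  rw [sub_add_cancel] at e2
  have e4 : A (i, j - 1) = √2 * C (i, j - 1) + θ (i - 1, j - 1) * D (i - 1, j - 1) := by
    rw [e1.2]; linear_combination (√2 * C (i, j - 1) - A (i, j - 1)) * h.θ2 (i - 1, j - 1)
  have e5 : Hs (i, j - 1) - Hs (i, j) = A (i, j - 1) ^ 2 - C (i, j - 1) ^ 2 := by linarith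
  rw [e5, e4]
  linear_combination (C (i, j - 1) ^ 2) * sqrt2_sq + (D (i - 1, j - 1) ^ 2) * h.θ2 (i - 1, j - 1)

theorem dE {i j : ℤ} (he : ((i, j) : Site) ∈ P ∨ ((i, j - 1) : Site) ∈ P) :
    Hs (i + 1, j) - Hs (i, j) = A (i, j) ^ 2 + C (i, j - 1) ^ 2 -
      2 * √2 * (A (i, j) * C (i, j - 1)) := by
  have e1 := h.V i (j - 1) (by rw [sub_add_cancel]; exact he.symm)
  rw [sub_add_cancel] at e1
  have e2 := hH.h.b i j
  have e3 := hH.h.a i j
  have e4 : B (i, j) = τ (i, j - 1) * (√2 * A (i, j) - C (i, j - 1)) := by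
    rw [e1.1]; linear_combination (-B (i, j)) * h.τ2 (i, j - 1)
  have e5 : Hs (i + 1, j) - Hs (i, j) = B (i, j) ^ 2 - A (i, j) ^ 2 := by linarith
  rw [e5, e4]
  linear_combination (A (i, j) ^ 2) * sqrt2_sq + (√2 * A (i, j) - C (i, j - 1)) ^ 2 * h.τ2 (i, j - 1)

theorem dW {i j : ℤ} (he : ((i - 1, j) : Site) ∈ P ∨ ((i - 1, j - 1) : Site) ∈ P) :
    Hs (i - 1, j) - Hs (i, j) = B (i - 1, j) ^ 2 + D (i - 1, j - 1) ^ 2 -
      2 * √2 * (B (i - 1, j) * D (i - 1, j - 1)) := by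
  have e1 := h.V (i - 1) (j - 1) (by rw [sub_add_cancel]; exact he.symm)
  rw [sub_add_cancel] at e1
  have e2 := hH.h.b (i - 1) j
  have e3 := hH.h.a (i - 1) j
  rw [sub_add_cancel] at e2
  have e4 : A (i - 1, j) = τ (i - 1, j - 1) * (√2 * B (i - 1, j) - D (i - 1, j - 1)) := by
    rw [e1.2]; linear_combination (-A (i - 1, j)) * h.τ2 (i - 1, j - 1)
  have e5 : Hs (i - 1, j) - Hs (i, j) = A (i - 1, j) ^ 2 - B (i - 1, j) ^ 2 := by linarith
  rw [e5, e4]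
  linear_combination (B (i - 1, j) ^ 2) * sqrt2_sq +
    (√2 * B (i - 1, j) - D (i - 1, j - 1)) ^ 2 * h.τ2 (i - 1, j - 1)

theorem fN {i j : ℤ} (he : ((i, j) : Site) ∈ P ∨ ((i, j + 1) : Site) ∈ P) :
    Hf (i, j + 1) - Hf (i, j) = -(C (i, j) ^ 2 + D (i, j) ^ 2) -
      2 * √2 * (τ (i, j) * (C (i, j) * D (i, j))) := by
  have e1 := h.V i j he
  have e2 := hH.h.c i j
  have e3 := hH.h.a i (j + 1)
  have e4 : A (i, j + 1) = √2 * C (i, j) + τ (i, j) * D (i, j) := by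
    rw [e1.2, e1.1]
    linear_combination (-A (i, j + 1)) * sqrt2_sq + A (i, j + 1) * h.τ2 (i, j)
  have e5 : Hf (i, j + 1) - Hf (i, j) = C (i, j) ^ 2 - A (i, j + 1) ^ 2 := by linarith
  rw [e5, e4]
  linear_combination (-(C (i, j) ^ 2)) * sqrt2_sq - (D (i, j) ^ 2) * h.τ2 (i, j)

theorem fS {i j : ℤ} (he : ((i, j) : Site) ∈ P ∨ ((i, j - 1) : Site) ∈ P) :
    Hf (i, j - 1) - Hf (i, j) = -(A (i, j) ^ 2 + B (i, j) ^ 2) +
      2 * √2 * (τ (i, j - 1) * (A (i, j) * B (i, j))) := by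
  have e1 := h.V i (j - 1) (by rw [sub_add_cancel]; exact he.symm)
  have e2 := hH.h.c i (j - 1)
  have e3 := hH.h.a i j
  rw [sub_add_cancel] at e1 e2
  have e5 : Hf (i, j - 1) - Hf (i, j) = A (i, j) ^ 2 - C (i, j - 1) ^ 2 := by linarith
  rw [e5, e1.1]
  linear_combination (-(A (i, j) ^ 2)) * sqrt2_sq - (B (i, j) ^ 2) * h.τ2 (i, j - 1)

theorem fE {i j : ℤ} (he : ((i, j) : Site) ∈ P ∨ ((i + 1, j) : Site) ∈ P) :
    Hf (i + 1, j) - Hf (i, j) = -(B (i, j) ^ 2 + D (i, j) ^ 2) +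
      2 * √2 * (B (i, j) * D (i, j)) := by
  have e1 := h.H i j he
  have e2 := hH.h.b i j
  have e3 := hH.h.a (i + 1) j
  have e4 : A (i + 1, j) = θ (i, j) * (√2 * B (i, j) - D (i, j)) := by
    rw [e1.2, e1.1]
    linear_combination (-(θ (i, j) ^ 2 * A (i + 1, j))) * sqrt2_sq - A (i + 1, j) * h.θ2 (i, j)
  have e5 : Hf (i + 1, j) - Hf (i, j) = B (i, j) ^ 2 - A (i + 1, j) ^ 2 := by linarith
  rw [e5, e4]
  linear_combination (-(√2 * B (i, j) - D (i, j)) ^ 2) * h.θ2 (i, j) - B (i, j) ^ 2 * sqrt2_sq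

theorem fW {i j : ℤ} (he : ((i, j) : Site) ∈ P ∨ ((i - 1, j) : Site) ∈ P) :
    Hf (i - 1, j) - Hf (i, j) = -(A (i, j) ^ 2 + C (i, j) ^ 2) +
      2 * √2 * (A (i, j) * C (i, j)) := by
  have e1 := h.H (i - 1) j (by rw [sub_add_cancel]; exact he.symm)
  have e2 := hH.h.b (i - 1) j
  have e3 := hH.h.a i j
  rw [sub_add_cancel] at e1 e2
  have e5 : Hf (i - 1, j) - Hf (i, j) = A (i, j) ^ 2 - B (i - 1, j) ^ 2 := by linarith
  rw [e5, e1.1]
  linear_combination (-(√2 * A (i, j) - C (i, j)) ^ 2) * h.θ2 (i - 1, j) - A (i, j) ^ 2 * sqrt2_sq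

/-- The Laplacian of `Hf` at a cell. -/
theorem lapf {i j : ℤ} (hf : ((i, j) : Site) ∈ P) :
    lap Hf (i, j) = -(2 * (B (i, j) ^ 2 + A (i, j) ^ 2 + D (i, j) ^ 2 + C (i, j) ^ 2) -
      2 * √2 * (τ (i, j - 1) * (B (i, j) * A (i, j)) - τ (i, j) * (D (i, j) * C (i, j)) +
        B (i, j) * D (i, j) + A (i, j) * C (i, j))) := by
  have e1 := fN h hH (Or.inl hf)
  have e2 := fS h hH (Or.inl hf)
  have e3 := fE h hH (Or.inl hf)
  have e4 := fW h hH (Or.inl hf)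
  unfold lap
  simp only
  linear_combination e1 + e2 + e3 + e4

theorem lapf_nonpos {i j : ℤ} (hf : ((i, j) : Site) ∈ P) (hτ : τ (i, j) = τ (i, j - 1)) :
    lap Hf (i, j) ≤ 0 := by
  rw [lapf h hH hf, hτ]
  have := quad_nonneg (B (i, j)) (A (i, j)) (D (i, j)) (C (i, j)) (τ (i, j - 1)) (h.τ2 _)
  linarith

/-- The sum over the four directions at a site where no spin is inserted. -/
theorem lap_low {i j : ℤ} (hθ : θ (i - 1, j) = θ (i - 1, j - 1)) :
    0 ≤ (iv P (i, j) * (Hs (i, j + 1) - Hs (i, j)) - 4 / 5 * ((1 - iv P (i, j)) * Hs (i, j))) +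
      (iv P (i, j - 1) * (Hs (i, j - 1) - Hs (i, j)) -
        4 / 5 * ((1 - iv P (i, j - 1)) * Hs (i, j))) +
      (ih P (i, j) * (Hs (i + 1, j) - Hs (i, j)) - 4 / 5 * ((1 - ih P (i, j)) * Hs (i, j))) +
      (ih P (i - 1, j) * (Hs (i - 1, j) - Hs (i, j)) -
        4 / 5 * ((1 - ih P (i - 1, j)) * Hs (i, j))) := by
  have t2 := h.θ2 (i - 1, j)
  refine P144G.alg (a := A (i, j)) (b := θ (i - 1, j) * B (i - 1, j)) (c := C (i, j - 1))
    (d := θ (i - 1, j) * D (i - 1, j - 1)) ?_ ?_ ?_ ?_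
  · by_cases hn : ((i, j) : Site) ∈ P ∨ ((i - 1, j) : Site) ∈ P
    · left
      rw [iv_in hn, dN h hH hn]
      linear_combination (-B (i - 1, j) ^ 2) * t2
    · right
      have e1 := h.H0 (i - 1) j (fun h1 => hn (Or.inr h1))
        (by rw [sub_add_cancel]; exact fun h1 => hn (Or.inl h1))
      rw [sub_add_cancel] at e1
      rw [iv_out hn, e1.1, outA hH fun h1 => hn (Or.inl h1)]
      exact ⟨by linear_combination A (i, j) * t2, by ring⟩
  · by_cases hn : ((i, j - 1) : Site) ∈ P ∨ ((i - 1, j - 1) : Site) ∈ P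
    · left
      rw [iv_in hn, dS h hH hn, ← hθ]
      linear_combination (-D (i - 1, j - 1) ^ 2) * t2
    · right
      have e1 := h.H0 (i - 1) (j - 1) (fun h1 => hn (Or.inr h1))
        (by rw [sub_add_cancel]; exact fun h1 => hn (Or.inl h1))
      have e2 := outC hH (i := i) (j := j - 1) fun h1 => hn (Or.inl h1)
      rw [sub_add_cancel] at e1 e2
      rw [iv_out hn, e1.2, e2, ← hθ]
      exact ⟨by linear_combination (-C (i, j - 1)) * t2, by ring⟩
  · by_cases hn : ((i, j) : Site) ∈ P ∨ ((i, j - 1) : Site) ∈ P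
    · left
      rw [ih_in hn, dE h hH hn]
      ring
    · right
      have e1 := h.V0 i (j - 1) (fun h1 => hn (Or.inr h1))
        (by rw [sub_add_cancel]; exact fun h1 => hn (Or.inl h1))
      rw [sub_add_cancel] at e1
      rw [ih_out hn, outA hH fun h1 => hn (Or.inl h1)]
      exact ⟨e1.1, by ring⟩
  · by_cases hn : ((i - 1, j) : Site) ∈ P ∨ ((i - 1, j - 1) : Site) ∈ P
    · left
      rw [ih_in hn, dW h hH hn]
      linear_combination (-B (i - 1, j) ^ 2 - D (i - 1, j - 1) ^ 2 +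
        2 * √2 * (B (i - 1, j) * D (i - 1, j - 1))) * t2
    · right
      have e1 := h.V0 (i - 1) (j - 1) (fun h1 => hn (Or.inr h1))
        (by rw [sub_add_cancel]; exact fun h1 => hn (Or.inl h1))
      have e2 := outB hH (i := i - 1) (j := j) fun h1 => hn (Or.inl h1)
      rw [sub_add_cancel] at e1 e2
      rw [ih_out hn, e1.2, e2]
      exact ⟨rfl, by linear_combination (4 / 5) * B (i - 1, j) ^ 2 * t2⟩

theorem lap_hat {i j : ℤ} (hθ : θ (i - 1, j) = θ (i - 1, j - 1)) :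
    hat P Hs (i, j) - Hs (i, j) ≤ lap (hat P Hs) (i, j) := by
  have k := lap_low h hH hθ
  have a1 := (mh hH (i + 1) j).2
  have a2 := (mv hH (i + 1) j).2
  have a3 := (mv hH (i + 1) (j - 1)).1
  have b1 := (mh hH (i - 1 - 1) j).1
  have b2 := (mv hH (i - 1) j).2
  have b3 := (mv hH (i - 1) (j - 1)).1
  have c1 := (mh hH i (j + 1)).2
  have c2 := (mh hH (i - 1) (j + 1)).1
  have c3 := (mv hH i (j + 1)).2
  have d1 := (mh hH i (j - 1)).2
  have d2 := (mh hH (i - 1) (j - 1)).1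
  have d3 := (mv hH i (j - 1 - 1)).1
  unfold lap hat
  simp only [add_sub_cancel_right, sub_add_cancel]
  linarith

end

/-- The Laplacians. -/
theorem slap : SLap := by
  rintro P τ θ A B C D Hs Hf h hH ⟨i, j⟩
  exact ⟨le_hat hH _, lap_hat h hH, lapf_nonpos h hH⟩

end Vale.Agent.P144S.H
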